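import Vale.Agent.P096.III.Analytic.Win

/-!
# The Gaussian mean of the modular group on an algebra and its commutant
-/

namespace Vale.Agent.P096.III.Analytic

open scoped InnerProductSpace Topology ComplexOrder ComplexConjugate
open Filter MeasureTheory Complex
open Vale.Agent.P132

universe u

variable {H : Type u} [NormedAddCommGroup H] [InnerProductSpace ℂ H] [CompleteSpace H]
  {N : VonNeumannAlgebra H} {Ω : H} (D : ModData N Ω)

/-- The Gaussian mean of width `T` of `σ_t(x)`. -/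
noncomputable def gs (T : ℝ) (x : H →L[ℂ] H) : H →L[ℂ] H := Fixed.sop D (win T 0) x

theorem gs_omega {T : ℝ} (hT : 0 < T) (x : H →L[ℂ] H) :
    gs D T x Ω = Fixed.vint D (win T 0) (x Ω) := Fixed.sop_omega D (integrable_win hT 0) x

theorem norm_sop_le {c : ℝ → ℂ} (hc : Integrable c) (x : H →L[ℂ] H) :
    ‖Fixed.sop D c x‖ ≤ (∫ t, ‖c t‖) * ‖x‖ := by
  refine ContinuousLinearMap.opNorm_le_bound _ (by positivity) fun v => ?_
  rw [Fixed.sop_apply D hc, mul_assoc, ← integral_mul_const]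
  refine (norm_integral_le_integral_norm _).trans
    (integral_mono (Fixed.integrable_smul_sig D hc x v).norm (hc.norm.mul_const _) fun t => ?_)
  simp only [norm_smul]
  exact mul_le_mul_of_nonneg_left (Fixed.norm_sig_le D t x v) (norm_nonneg _)

theorem gs_norm_le {T : ℝ} (hT : 0 < T) (x : H →L[ℂ] H) : ‖gs D T x‖ ≤ ‖x‖ := by
  refine (norm_sop_le D (integrable_win hT 0) x).trans_eq ?_
  rw [integral_norm_win hT]; simp

theorem gs_mem {T : ℝ} (hT : 0 < T) {x : H →L[ℂ] H} (hx : x ∈ N) : gs D T x ∈ N :=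
  Fixed.sop_mem D (integrable_win hT 0) hx

theorem sig_mem_commutant (t : ℝ) {x : H →L[ℂ] H} (hx : x ∈ N.commutant) :
    Fixed.sig D t x ∈ N.commutant := by
  rw [VonNeumannAlgebra.mem_commutant_iff] at hx ⊢
  intro g hg
  have hU : ∀ s, D.U s * D.U (-s) = 1 := fun s => by rw [← D.U_add, add_neg_cancel, D.U_zero]
  have hU' : D.U (-t) * D.U t = 1 := by simpa using hU (-t)
  have hg' := D.U_conj (-t) g hg
  rw [neg_neg] at hg'
  set g' := D.U (-t) * g * D.U t with hg'def
  have h1 : g * D.U t = D.U t * g' := by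
    rw [hg'def, mul_assoc, ← mul_assoc (D.U t), hU, one_mul]
  have h2 : g' * D.U (-t) = D.U (-t) * g := by
    rw [hg'def, mul_assoc, mul_assoc, hU, mul_one]
  calc g * Fixed.sig D t x = g * D.U t * x * D.U (-t) := by simp [Fixed.sig, mul_assoc]
    _ = D.U t * (g' * x) * D.U (-t) := by rw [h1, mul_assoc (D.U t)]
    _ = D.U t * x * (g' * D.U (-t)) := by rw [hx g' hg']; simp [mul_assoc]
    _ = Fixed.sig D t x * g := by rw [h2]; simp [Fixed.sig, mul_assoc]

theorem gs_mem_commutant {T : ℝ} (hT : 0 < T) {x : H →L[ℂ] H} (hx : x ∈ N.commutant) :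
    gs D T x ∈ N.commutant := by
  rw [VonNeumannAlgebra.mem_commutant_iff]
  intro g hg
  ext v
  have hi := integrable_win hT 0
  simp only [gs, mul_apply_eq_comp, Fixed.sop_apply D hi]
  rw [← g.integral_comp_comm (Fixed.integrable_smul_sig D hi x v)]
  refine integral_congr_ae (Eventually.of_forall fun t => ?_)
  have h := VonNeumannAlgebra.mem_commutant_iff.1 (sig_mem_commutant D t hx) g hg
  simp only [map_smul]
  exact congrArg (fun z => win T 0 t • z) (congrFun (congrArg DFunLike.coe h) v)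

theorem star_gs {T : ℝ} (hT : 0 < T) (x : H →L[ℂ] H) : star (gs D T x) = gs D T (star x) := by
  rw [gs, gs, Fixed.star_sop D (integrable_win hT 0)]
  congr 1
  funext t
  simp [conj_win]

theorem gs_add {T : ℝ} (hT : 0 < T) (x y : H →L[ℂ] H) :
    gs D T (x + y) = gs D T x + gs D T y := by
  have hi := integrable_win hT 0
  ext v
  simp only [gs, add_apply, Fixed.sop_apply D hi]
  rw [← integral_add (Fixed.integrable_smul_sig D hi x v) (Fixed.integrable_smul_sig D hi y v)]
  simp [Fixed.sig_apply, smul_add]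

theorem gs_smul {T : ℝ} (hT : 0 < T) (z : ℂ) (x : H →L[ℂ] H) :
    gs D T (z • x) = z • gs D T x := by
  have hi := integrable_win hT 0
  ext v
  simp only [gs, smul_apply, Fixed.sop_apply D hi]
  rw [← integral_smul]
  simp [Fixed.sig_apply, smul_comm z]

theorem tendsto_gs (x : H →L[ℂ] H) :
    Tendsto (fun n => gs D (Modular.wid n) x Ω) atTop (𝓝 (x Ω)) :=
  (tendsto_win D (x Ω)).congr fun n => (gs_omega D (Modular.wid_pos n) x).symm

/-- `Δ^(1/2) y Ω = J y* Ω`, smeared. -/
theorem win_J_star {T : ℝ} (hT : 0 < T) {y : H →L[ℂ] H} (hy : y ∈ N) (z : ℝ) :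
    Fixed.vint D (win T z) (D.J (star y Ω)) = Fixed.vint D (win T (z + 1 / 2)) (y Ω) := by
  have base : ∀ S : ℝ, 0 < S → Fixed.vint D (win S 0) (D.J (star y Ω)) =
      Fixed.vint D (win S (1 / 2)) (y Ω) := by
    intro S hS
    have h := D.kms y hy S 0 hS
    rw [show (fun t : ℝ => conj (gauss S 0 (t : ℂ)) • D.U t (star y Ω)) =
      fun t : ℝ => gauss S 0 (t : ℂ) • D.U t (star y Ω) from
        funext fun t => by simp [Fixed.conj_gauss]] at h
    rw [show win S 0 = fun t : ℝ => (((S * √(2 * Real.pi))⁻¹ : ℝ) : ℂ) * gauss S 0 (t : ℂ) from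
        funext (win_gauss S), Fixed.vint_const_mul,
      show win S (1 / 2) = fun t : ℝ => (((S * √(2 * Real.pi))⁻¹ : ℝ) : ℂ) *
        gauss S 0 ((t : ℂ) + I / 2) from funext (win_gauss_shift S), Fixed.vint_const_mul]
    congr 1
    have h2 : D.J (Fixed.vint D (fun t => gauss S 0 (t : ℂ)) (star y Ω)) =
        Fixed.vint D (fun t => gauss S 0 ((t : ℂ) + I / 2)) (y Ω) := h
    rw [← h2, Fixed.J_vint]
    simp [Fixed.conj_gauss]
  have hT2 : 0 < T / √2 := by positivity
  have e : √((T / √2) ^ 2 + (T / √2) ^ 2) = T := by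
    rw [div_pow, Real.sq_sqrt (by norm_num), add_halves, Real.sqrt_sq hT.le]
  calc Fixed.vint D (win T z) (D.J (star y Ω))
      = Fixed.vint D (win (T / √2) z) (Fixed.vint D (win (T / √2) 0) (D.J (star y Ω))) := by
        rw [win_win D hT2 hT2, e, add_zero]
    _ = _ := by rw [base _ hT2, win_win D hT2 hT2, e]

/-- `Δ^(-1/2) a Ω = J a* Ω` on the commutant, smeared. -/
theorem win_J_star' (hcs : IsCS N Ω) {T : ℝ} (hT : 0 < T) {a : H →L[ℂ] H}
    (ha : a ∈ N.commutant) (z : ℝ) :
    Fixed.vint D (win T z) (D.J (star a Ω)) = Fixed.vint D (win T (z - 1 / 2)) (a Ω) := by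
  obtain ⟨x, hx, hax⟩ := Modular.commutant_onto D hcs ha
  have h : a = Modular.conjOp D x := ContinuousLinearMap.ext hax
  have h' := congrArg D.J (win_J_star D hT hx (-z))
  rw [J_win, J_win, D.J_invol, neg_neg] at h'
  rw [h, Modular.star_conjOp, Modular.conjOp_omega, Modular.conjOp_omega, D.J_invol, h']
  ring_nf

/-- A smoothed element of the commutant has a bounded partner in the algebra. -/
theorem gs_partner (hcs : IsCS N Ω) {T : ℝ} (hT : 0 < T) {a : H →L[ℂ] H}
    (ha : a ∈ N.commutant) : ∃ P ∈ N,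
      ‖P‖ ≤ Real.exp (1 / (8 * T ^ 2)) * ‖a‖ ∧ P Ω = gs D T a Ω := by
  obtain ⟨x, hx, hax⟩ := Modular.commutant_onto D hcs ha
  have hn : ‖star x‖ ≤ ‖a‖ := by
    rw [norm_star]
    refine ContinuousLinearMap.opNorm_le_bound _ (norm_nonneg _) fun v => ?_
    have h := hax (D.J v)
    rw [D.J_invol] at h
    have h2 : ‖x v‖ = ‖a (D.J v)‖ := by rw [h, Fixed.norm_J]
    rw [h2]
    exact (a.le_opNorm _).trans_eq (by rw [Fixed.norm_J])
  refine ⟨Fixed.sop D (win T (1 / 2)) (star x), Fixed.sop_mem D (integrable_win hT _) (star_mem hx),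
    (norm_sop_le D (integrable_win hT _) _).trans ?_, ?_⟩
  · rw [integral_norm_win hT, show (1 / 2 : ℝ) ^ 2 / (2 * T ^ 2) = 1 / (8 * T ^ 2) by ring]
    gcongr
  · rw [Fixed.sop_omega D (integrable_win hT _), gs_omega D hT,
      show a Ω = D.J (x Ω) by rw [hax, D.J_omega]]
    have h := win_J_star D hT (star_mem hx) 0
    rw [star_star, zero_add] at h
    exact h.symm

/-- A smoothed element of the algebra has a bounded partner in the commutant. -/
theorem gs_partner' (hcs : IsCS N Ω) {T : ℝ} (hT : 0 < T) {b : H →L[ℂ] H} (hb : b ∈ N) :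
    ∃ Q ∈ N.commutant, ‖Q‖ ≤ Real.exp (1 / (8 * T ^ 2)) * ‖b‖ ∧ Q Ω = gs D T b Ω := by
  have hc : ∀ x : H →L[ℂ] H, ‖Modular.conjOp D x‖ ≤ ‖x‖ := fun x =>
    ContinuousLinearMap.opNorm_le_bound _ (norm_nonneg _) fun v => by
      rw [Modular.conjOp_apply, Fixed.norm_J]
      exact (x.le_opNorm _).trans_eq (by rw [Fixed.norm_J])
  obtain ⟨P, hP, hn, hΩ⟩ := gs_partner D hcs hT (Modular.conjOp_mem D hb)
  refine ⟨Modular.conjOp D P, Modular.conjOp_mem D hP, (hc P).trans (hn.trans
    (mul_le_mul_of_nonneg_left (hc b) (Real.exp_pos _).le)), ?_⟩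
  rw [Modular.conjOp_omega, hΩ, gs_omega D hT, gs_omega D hT, J_win, neg_zero,
    Modular.conjOp_omega, D.J_invol]

end Vale.Agent.P096.III.Analytic
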