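import Vale.Agent.P096.III.Analytic.Conc

/-!
# The centre: fixed by the modular objects; the estimate used by the words
-/

namespace Vale.Agent.P096.III.Analytic

open scoped InnerProductSpace Topology ComplexOrder ComplexConjugate
open Filter MeasureTheory Complex
open Vale.Agent.P132

universe u v

variable {H : Type u} [NormedAddCommGroup H] [InnerProductSpace ℂ H] [CompleteSpace H]
  {N : VonNeumannAlgebra H} {Ω : H} (D : ModData N Ω) {c : H →L[ℂ] H}

theorem central_star (hc : c ∈ N) (hc' : c ∈ N.commutant) :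
    star c ∈ N ∧ star c ∈ N.commutant := ⟨star_mem hc, star_mem hc'⟩

theorem norm_star_central (hc : c ∈ N) (hc' : c ∈ N.commutant) (v : H) :
    ‖star c v‖ = ‖c v‖ := by
  have h : c * star c = star c * c :=
    (VonNeumannAlgebra.mem_commutant_iff.1 hc' (star c) (star_mem hc)).symm
  rw [norm_eq_sqrt_re_inner (𝕜 := ℂ), norm_eq_sqrt_re_inner (𝕜 := ℂ)]
  congr 2
  rw [ContinuousLinearMap.star_eq_adjoint, ContinuousLinearMap.adjoint_inner_left,
    ← ContinuousLinearMap.adjoint_inner_right c, ← ContinuousLinearMap.star_eq_adjoint]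
  exact congrArg (fun f : H →L[ℂ] H => ⟪v, f v⟫_ℂ) h

/-- The modular objects fix the vectors of the centre. -/
theorem central_fixed (hcs : IsCS N Ω) (hc : c ∈ N) (hc' : c ∈ N.commutant) :
    D.J (star c Ω) = c Ω ∧ ∀ t, D.U t (c Ω) = c Ω := by
  set ξ := c Ω
  set η := D.J (star c Ω) with hη
  have hk := integrable_kern one_pos
  have h : ξ = Fixed.vint D (kern 1) (η + η) := (strip_eq D hcs hc hc' rfl).symm
  have hn : ‖η‖ = ‖ξ‖ := by rw [hη, Fixed.norm_J, norm_star_central hc hc']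
  have key : ∀ t, D.U t η = ξ := by
    set f : ℝ → ℝ := fun t => (kern 1 t).re * (‖ξ‖ ^ 2 - (⟪ξ, D.U t η⟫_ℂ).re) with hf
    have hre : ∀ t, (kern 1 t).re = (Tomita.den t)⁻¹ := fun t => by simp [kern]
    have hle : ∀ t, (⟪ξ, D.U t η⟫_ℂ).re ≤ ‖ξ‖ ^ 2 := fun t => by
      refine ((Complex.re_le_norm _).trans (norm_inner_le_norm _ _)).trans_eq ?_
      rw [Fixed.norm_U, hn, sq]
    have hf0 : 0 ≤ f := fun t => by
      rw [hf, Pi.zero_apply]
      exact mul_nonneg (by rw [hre]; exact (inv_pos.2 (Tomita.den_pos t)).le) (sub_nonneg.2 (hle t))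
    have hi1 : Integrable fun t => (kern 1 t).re * ‖ξ‖ ^ 2 := hk.re.mul_const _
    have hiC : Integrable fun t => kern 1 t * ⟪ξ, D.U t η⟫_ℂ := hk.mul_bdd
      ((continuous_const.inner (D.U_cont η)).aestronglyMeasurable) (c := ‖ξ‖ * ‖η‖)
      (Eventually.of_forall fun t => (norm_inner_le_norm _ _).trans_eq (by rw [Fixed.norm_U]))
    have e : ∀ t, f t = (kern 1 t).re * ‖ξ‖ ^ 2 - (kern 1 t * ⟪ξ, D.U t η⟫_ℂ).re := fun t => by
      simp [hf, kern, mul_sub]
    have hiR : Integrable fun t => (kern 1 t * ⟪ξ, D.U t η⟫_ℂ).re := hiC.re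
    have hfi : Integrable f := (hi1.sub hiR).congr (Eventually.of_forall fun t => (e t).symm)
    have h0 : ∫ t, f t = 0 := by
      rw [integral_congr_ae (Eventually.of_forall e), integral_sub hi1 hiR, integral_mul_const,
        sub_eq_zero]
      have h1 : ∫ t, (kern 1 t).re = 1 / 2 := by
        simp only [hre]; exact Tomita.integral_inv_den
      have h2 := congrArg (fun w => (⟪ξ, w⟫_ℂ).re) h
      simp only [Fixed.vint_add D hk, inner_add_right, Complex.add_re, inner_self_eq_norm_sq_to_K,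
        Fixed.inner_vint D hk] at h2
      have h3 : (∫ t, (kern 1 t * ⟪ξ, D.U t η⟫_ℂ).re) = (∫ t, kern 1 t * ⟪ξ, D.U t η⟫_ℂ).re :=
        integral_re hiC
      rw [h1, h3]
      norm_cast at h2
      have h4 : ‖ξ‖ ^ 2 = (∫ t, kern 1 t * ⟪ξ, D.U t η⟫_ℂ).re +
          (∫ t, kern 1 t * ⟪ξ, D.U t η⟫_ℂ).re := h2
      linarith
    have hfc : Continuous f := (Complex.continuous_re.comp (continuous_kern 1)).mul
      (continuous_const.sub (Complex.continuous_re.comp (continuous_const.inner (D.U_cont η))))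
    have hz : f = fun _ => (0 : ℝ) := (Continuous.ae_eq_iff_eq volume hfc continuous_const).1
      ((integral_eq_zero_iff_of_nonneg hf0 hfi).1 h0)
    intro t
    have h4 : (⟪ξ, D.U t η⟫_ℂ).re = ‖ξ‖ ^ 2 := by
      have := congrFun hz t
      simp only [hf, mul_eq_zero, hre, inv_eq_zero, (Tomita.den_pos t).ne', false_or] at this
      linarith
    have h5 := norm_sub_sq (𝕜 := ℂ) ξ (D.U t η)
    simp only [RCLike.re_to_complex, h4, Fixed.norm_U, hn] at h5
    have : ‖ξ - D.U t η‖ = 0 := by nlinarith [norm_nonneg (ξ - D.U t η)]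
    exact (sub_eq_zero.1 (norm_eq_zero.1 this)).symm
  have h0 : η = ξ := by simpa [D.U_zero] using key 0
  exact ⟨h0, fun t => by simpa [h0] using key t⟩

theorem central_comm_U (hcs : IsCS N Ω) (hc : c ∈ N) (hc' : c ∈ N.commutant) (t : ℝ) (v : H) :
    D.U t (c v) = c (D.U t v) := by
  have h : Fixed.sig D t c = c := by
    rw [← sub_eq_zero]
    refine hcs.separating _ (sub_mem (D.U_conj t c hc) hc) ?_
    rw [sub_apply, Fixed.sig_omega, (central_fixed D hcs hc hc').2 t, sub_self]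
  conv_rhs => rw [← h, Fixed.sig_apply, Fixed.U_neg_U]

theorem central_J (hcs : IsCS N Ω) (hc : c ∈ N) (hc' : c ∈ N.commutant) (v : H) :
    D.J (c v) = star c (D.J v) := by
  obtain ⟨x, hx, hcx⟩ := Modular.commutant_onto D hcs hc'
  have he : Modular.conjOp D c = x := by
    ext w; rw [Modular.conjOp_apply, hcx, D.J_invol, D.J_invol]
  have h : x = star c := by
    rw [← sub_eq_zero]
    refine hcs.separating _ (sub_mem hx (star_mem hc)) ?_
    rw [sub_apply, ← he, Modular.conjOp_omega, sub_eq_zero]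
    rw [← D.J_invol (star c Ω), (central_fixed D hcs hc hc').1]
  rw [hcx, D.J_invol, h]

theorem central_vint (hcs : IsCS N Ω) (hc : c ∈ N) (hc' : c ∈ N.commutant) {f : ℝ → ℂ}
    (hf : Integrable f) (v : H) :
    Fixed.vint D f (c v) = c (Fixed.vint D f v) := by
  rw [Fixed.vint, Fixed.vint, ← c.integral_comp_comm (Fixed.integrable_smul_U D hf v)]
  simp [central_comm_U D hcs hc hc']

/-- A contraction of the commutant, smoothed, with its partner and the estimate on every part of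
the centre. -/
theorem exists_pair (r : ℝ) (hr : 0 < r) : ∃ Λ : ℝ, 0 < Λ ∧
    ∀ (H : Type v) [NormedAddCommGroup H] [InnerProductSpace ℂ H] [CompleteSpace H]
      (N : VonNeumannAlgebra H) (Ω : H) (_D : ModData N Ω), IsCS N Ω →
      ∀ y ∈ N, ∀ y' ∈ N.commutant, ‖y‖ ≤ 1 → ‖y'‖ ≤ 1 →
        ∃ Q ∈ N.commutant, ∃ P ∈ N, ‖Q‖ ≤ 1 ∧ ‖P‖ ≤ Λ ∧ Q Ω = P Ω ∧
          ∀ c ∈ N, c ∈ N.commutant →
            ‖c (Q Ω - y' Ω)‖ ≤ 2 * ‖c (y Ω - y' Ω)‖ + r * ‖c Ω‖ := by
  obtain ⟨T, hT, hw⟩ := exists_width.{v} (r / 2) (half_pos hr)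
  refine ⟨Real.exp (1 / (8 * T ^ 2)), Real.exp_pos _, ?_⟩
  intro H _ _ _ N Ω D hcs y hy y' hy' hn hn'
  obtain ⟨P, hP, hPn, hPΩ⟩ := gs_partner D hcs hT hy'
  refine ⟨gs D T y', gs_mem_commutant D hT hy', P, hP, (gs_norm_le D hT y').trans hn',
    hPn.trans (mul_le_of_le_one_right (Real.exp_pos _).le hn'), hPΩ.symm, fun c hc hc' => ?_⟩
  have hcy : ∀ x : H →L[ℂ] H, x * c = c * x → ‖star (c * x) Ω‖ ≤ ‖x‖ * ‖c Ω‖ := fun x hx => by
    rw [star_mul, mul_apply_eq_comp]
    refine ((star x).le_opNorm _).trans_eq ?_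
    rw [norm_star, norm_star_central hc hc']
  have h := hw H N Ω D hcs (c * y) (mul_mem hc hy) (c * y') (mul_mem hc' hy')
  have e : gs D T (c * y') Ω = c (gs D T y' Ω) := by
    rw [gs_omega D hT, gs_omega D hT, mul_apply_eq_comp,
      central_vint D hcs hc hc' (integrable_win hT 0)]
  simp only [e, mul_apply_eq_comp, ← map_sub] at h
  rw [← norm_neg, ← map_neg, neg_sub]
  refine h.trans (add_le_add le_rfl ?_)
  have h1 := hcy y (VonNeumannAlgebra.mem_commutant_iff.1 hc' y hy)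
  have h2 := hcy y' (VonNeumannAlgebra.mem_commutant_iff.1 hy' c hc).symm
  have h3 : ‖y‖ * ‖c Ω‖ + ‖y'‖ * ‖c Ω‖ ≤ 2 * ‖c Ω‖ := by nlinarith [norm_nonneg (c Ω)]
  nlinarith

end Vale.Agent.P096.III.Analytic
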