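import Vale.Agent.P096.III.Analytic.Basic

/-!
# The two sided estimate

A vector which is nearly `yΩ` and nearly `y'Ω` for `y` in the algebra and `y'` in the commutant is
nearly fixed by the Gaussian mean, with an error of order `T (‖y*Ω‖ + ‖y'*Ω‖)`.
-/

namespace Vale.Agent.P096.III.Analytic

open scoped InnerProductSpace Topology ComplexOrder ComplexConjugate
open Filter MeasureTheory Complex
open Vale.Agent.P132

universe u v

variable {H : Type u} [NormedAddCommGroup H] [InnerProductSpace ℂ H] [CompleteSpace H]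
  {N : VonNeumannAlgebra H} {Ω : H} (D : ModData N Ω)

theorem win_tendsto_kern {v c : H} :
    Tendsto (fun n => Fixed.vint D (kern 1)
      (Fixed.vint D (win (Modular.wid n) 0) v + Fixed.vint D (win (Modular.wid n) 0) c)) atTop
      (𝓝 (Fixed.vint D (kern 1) (v + c))) :=
  ((Modular.continuous_vint D (integrable_kern one_pos)).tendsto _).comp
    ((tendsto_win D v).add (tendsto_win D c))

/-- A vector of both the algebra and the commutant is recovered from `Δ^(±1/2)`. -/
theorem strip_eq (hcs : IsCS N Ω) {v c : H →L[ℂ] H} (hv : v ∈ N) (hc : c ∈ N.commutant)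
    (h : v Ω = c Ω) :
    Fixed.vint D (kern 1) (D.J (star v Ω) + D.J (star c Ω)) = v Ω := by
  refine tendsto_nhds_unique (win_tendsto_kern D) ((tendsto_win D (v Ω)).congr fun n => ?_)
  have hT := Modular.wid_pos n
  rw [win_J_star D hT hv 0, win_J_star' D hcs hT hc 0, ← h]
  have h2 := kern_win D one_pos hT 0 (v Ω)
  rw [mul_one] at h2
  exact h2.symm

/-- Both parts of the decomposition of such a vector are shorter than it. -/
theorem norm_parts_le (hcs : IsCS N Ω) {v c : H →L[ℂ] H} (hv : v ∈ N) (hc : c ∈ N.commutant)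
    (h : v Ω = c Ω) :
    ‖Fixed.vint D (kern 1) (D.J (star v Ω))‖ ≤ ‖v Ω‖ ∧
      ‖Fixed.vint D (kern 1) (D.J (star c Ω))‖ ≤ ‖v Ω‖ := by
  set a := Fixed.vint D (kern 1) (D.J (star v Ω)) with ha
  set b := Fixed.vint D (kern 1) (D.J (star c Ω)) with hb
  have hk := integrable_kern one_pos
  have hsum : a + b = v Ω := by rw [ha, hb, ← Fixed.vint_add D hk, strip_eq D hcs hv hc h]
  have hpos : 0 ≤ (⟪a, b⟫_ℂ).re := by
    set u := Fixed.sop D (kern 1) (Fixed.sop D (kern 1) (star v))
    have hu : u ∈ N := Fixed.sop_mem D hk (Fixed.sop_mem D hk (star_mem hv))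
    have hcu : c (u Ω) = u (c Ω) := by
      simpa using congrArg (fun f : H →L[ℂ] H => f Ω)
        (VonNeumannAlgebra.mem_commutant_iff.1 hc u hu).symm
    have hconj : (fun t => conj (kern 1 t)) = kern 1 := funext (conj_kern 1)
    have e : ⟪a, b⟫_ℂ = ⟪Fixed.vint D (kern 1) (v Ω), Fixed.vint D (kern 1) (v Ω)⟫_ℂ := by
      rw [ha, hb, ← J_kern, ← J_kern, D.J_inner, inner_kern D one_pos, ← Fixed.sop_omega D hk,
        ← Fixed.sop_omega D hk, ContinuousLinearMap.star_eq_adjoint (A := c),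
        ContinuousLinearMap.adjoint_inner_left, hcu, ← h, ← ContinuousLinearMap.adjoint_inner_left,
        ← ContinuousLinearMap.star_eq_adjoint, Fixed.star_sop D hk, Fixed.star_sop D hk, hconj,
        star_star, Fixed.sop_omega D hk, Fixed.sop_omega D hk, inner_kern D one_pos]
    rw [e, inner_self_eq_norm_sq_to_K]
    norm_cast
    exact sq_nonneg _
  have hsq := norm_add_sq (𝕜 := ℂ) a b
  rw [hsum] at hsq
  simp only [RCLike.re_to_complex] at hsq
  constructor
  · nlinarith [norm_nonneg a, norm_nonneg (v Ω), sq_nonneg ‖b‖]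
  · nlinarith [norm_nonneg b, norm_nonneg (v Ω), sq_nonneg ‖a‖]

/-- The two sided estimate before smoothing. -/
theorem norm_sub_strip_le (hcs : IsCS N Ω) {y y' : H →L[ℂ] H} (hy : y ∈ N)
    (hy' : y' ∈ N.commutant) :
    ‖y' Ω - Fixed.vint D (kern 1) (D.J (star y Ω) + D.J (star y' Ω))‖ ≤ ‖y Ω - y' Ω‖ := by
  have hL : Tendsto (fun n => ‖Fixed.vint D (win (Modular.wid n) 0) (y' Ω) -
      Fixed.vint D (kern 1) (Fixed.vint D (win (Modular.wid n) 0) (D.J (star y Ω)) +
        Fixed.vint D (win (Modular.wid n) 0) (D.J (star y' Ω)))‖) atTop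
      (𝓝 ‖y' Ω - Fixed.vint D (kern 1) (D.J (star y Ω) + D.J (star y' Ω))‖) :=
    ((tendsto_win D (y' Ω)).sub (win_tendsto_kern D)).norm
  refine le_of_tendsto hL (Eventually.of_forall fun n => ?_)
  set T := Modular.wid n
  have hT : 0 < T := Modular.wid_pos n
  have hw := gs_mem D hT hy
  have hw' := gs_mem_commutant D hT hy'
  have hJ : ∀ x : H →L[ℂ] H,
      D.J (star (gs D T x) Ω) = Fixed.vint D (win T 0) (D.J (star x Ω)) := fun x => by
    rw [star_gs D hT, gs_omega D hT, J_win, neg_zero]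
  obtain ⟨P, hP, -, hPΩ⟩ := gs_partner D hcs hT hy'
  obtain ⟨Q, hQ, -, hQΩ⟩ := gs_partner' D hcs hT hy
  have hk := integrable_kern one_pos
  have h1 := strip_eq D hcs hP hw' hPΩ
  have h2 := (norm_parts_le D hcs (sub_mem hP hw) (sub_mem hw' hQ)
    (by simp [hPΩ, hQΩ])).1
  rw [← gs_omega D hT, ← hJ y, ← hJ y', ← hPΩ]
  calc ‖P Ω - Fixed.vint D (kern 1) (D.J (star (gs D T y) Ω) + D.J (star (gs D T y') Ω))‖
      = ‖Fixed.vint D (kern 1) (D.J (star (P - gs D T y) Ω))‖ := by
        conv_lhs => rw [← h1, Fixed.vint_add D hk, Fixed.vint_add D hk, add_sub_add_right_eq_sub]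
        congr 1
        rw [eq_comm, eq_sub_iff_add_eq, ← Fixed.vint_add D hk, ← D.J_add, star_sub]
        simp
    _ ≤ ‖(P - gs D T y) Ω‖ := h2
    _ ≤ ‖y Ω - y' Ω‖ := by
        simp only [sub_apply, hPΩ, gs_omega D hT]
        rw [norm_sub_rev, show Fixed.vint D (win T 0) (y Ω) - Fixed.vint D (win T 0) (y' Ω) =
          Fixed.vint D (win T 0) (y Ω - y' Ω) by
            rw [sub_eq_iff_eq_add, ← Fixed.vint_add D (integrable_win hT 0), sub_add_cancel]]
        exact norm_win_le D hT _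

/-- The absolute constant of the two sided estimate. -/
noncomputable def wc : ℝ := Real.pi * √2 * Real.exp ((Real.pi + 1) ^ 2) / 2

theorem wc_pos : 0 < wc := by unfold wc; positivity

theorem norm_win_sub_kern_le {T : ℝ} (hT : 0 < T) (hT1 : T ≤ 1) (h : H) :
    ‖Fixed.vint D (kern 1) h - Fixed.vint D (win T 0) (Fixed.vint D (kern 1) h)‖ ≤
      wc * T * ‖h‖ := by
  set R := Fixed.vint D (kern 1) h
  have hi := integrable_win hT 0
  have hk := integrable_kern one_pos
  have hone : ∫ t, win T 0 t = 1 := by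
    have e : ∀ t, win T 0 t = ((‖win T 0 t‖ : ℝ) : ℂ) := fun t => by
      rw [win, ofReal_zero, zero_mul, add_zero, Fixed.gam_ofReal, norm_mul, Complex.norm_real,
        Complex.norm_real, Real.norm_of_nonneg (by positivity),
        Real.norm_of_nonneg (Real.exp_pos _).le, ofReal_mul]
    rw [integral_congr_ae (Eventually.of_forall e), integral_complex_ofReal, integral_norm_win hT]
    simp
  have hR : R - Fixed.vint D (win T 0) R = ∫ t, win T 0 t • (R - D.U t R) := by
    simp only [smul_sub]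
    rw [integral_sub (hi.smul_const R) (Fixed.integrable_smul_U D hi R), integral_smul_const, hone,
      one_smul]
    rfl
  have hp : ∀ t, ‖R - D.U t R‖ ≤ (Real.exp (Real.pi * |t|) - 1) / 2 * ‖h‖ := by
    intro t
    rw [norm_sub_rev, Fixed.U_vint D hk, vint_U, ← Fixed.vint_sub_left D (hk.comp_sub_right t) hk]
    exact (Fixed.norm_vint_le D _ h).trans
      (mul_le_mul_of_nonneg_right (integral_norm_kern_sub_le t) (norm_nonneg _))
  have hb : ∀ t, ‖win T 0 t • (R - D.U t R)‖ ≤
      (T * √(2 * Real.pi))⁻¹ * (Real.pi * T * Real.exp ((Real.pi + 1) ^ 2) / 2) * ‖h‖ *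
        Real.exp (-(1 / (4 * T ^ 2)) * t ^ 2) := by
    intro t
    rw [norm_smul, norm_win hT]
    refine (mul_le_mul_of_nonneg_left (hp t) (by positivity)).trans ?_
    simp only [ne_eq, OfNat.ofNat_ne_zero, not_false_eq_true, zero_pow, zero_div, Real.exp_zero,
      mul_one]
    set q := |t| / T
    have hq : |t| = T * q := by simp only [q]; field_simp
    have hq0 : 0 ≤ q := by positivity
    have h1 : Real.exp (Real.pi * |t|) - 1 ≤ Real.pi * |t| * Real.exp (Real.pi * |t|) := by
      have := Real.add_one_le_exp (-(Real.pi * |t|))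
      rw [Real.exp_neg] at this
      have h := mul_le_mul_of_nonneg_right this (Real.exp_pos (Real.pi * |t|)).le
      rw [inv_mul_cancel₀ (Real.exp_pos _).ne'] at h
      linarith
    have h2 : q * Real.exp (Real.pi * |t|) ≤
        Real.exp ((Real.pi + 1) ^ 2) * Real.exp (q ^ 2 / 4) := by
      refine (mul_le_mul_of_nonneg_right ((le_add_of_nonneg_right zero_le_one).trans
        (Real.add_one_le_exp q)) (Real.exp_pos _).le).trans ?_
      rw [← Real.exp_add, ← Real.exp_add, Real.exp_le_exp, hq]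
      nlinarith [sq_nonneg (q / 2 - (Real.pi + 1)),
        mul_le_mul_of_nonneg_right (mul_le_mul_of_nonneg_left hT1 Real.pi_pos.le) hq0]
    have h3 : Real.exp (q ^ 2 / 4) * Real.exp (-(1 / (2 * T ^ 2)) * t ^ 2) =
        Real.exp (-(1 / (4 * T ^ 2)) * t ^ 2) := by
      rw [← Real.exp_add, ← sq_abs t, hq]
      congr 1
      field_simp
      ring
    calc (T * √(2 * Real.pi))⁻¹ * Real.exp (-(1 / (2 * T ^ 2)) * t ^ 2) *
          ((Real.exp (Real.pi * |t|) - 1) / 2 * ‖h‖)
        ≤ (T * √(2 * Real.pi))⁻¹ * Real.exp (-(1 / (2 * T ^ 2)) * t ^ 2) *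
          (Real.pi * T * (Real.exp ((Real.pi + 1) ^ 2) * Real.exp (q ^ 2 / 4)) / 2 * ‖h‖) := by
          gcongr
          refine h1.trans ?_
          calc Real.pi * |t| * Real.exp (Real.pi * |t|)
              = Real.pi * T * (q * Real.exp (Real.pi * |t|)) := by rw [hq]; ring
            _ ≤ _ := mul_le_mul_of_nonneg_left h2 (by positivity)
      _ = _ := by rw [← h3]; ring
  rw [hR]
  refine (norm_integral_le_of_norm_le
    ((integrable_exp_neg_mul_sq (by positivity)).const_mul _) (Eventually.of_forall hb)).trans_eq ?_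
  rw [integral_const_mul, integral_gaussian,
    show Real.pi / (1 / (4 * T ^ 2)) = Real.pi * (2 * T) ^ 2 by field_simp; ring,
    Real.sqrt_mul Real.pi_pos.le ((2 * T) ^ 2), Real.sqrt_sq (by positivity),
    Real.sqrt_mul (by norm_num : (0 : ℝ) ≤ 2) Real.pi, wc]
  have h2 : √(2 : ℝ) * √2 = 2 := Real.mul_self_sqrt (by norm_num)
  field_simp
  linear_combination -‖h‖ * h2

/-- The two sided estimate. -/
theorem norm_sub_gs_le (hcs : IsCS N Ω) {T : ℝ} (hT : 0 < T) (hT1 : T ≤ 1)
    {y y' : H →L[ℂ] H} (hy : y ∈ N) (hy' : y' ∈ N.commutant) :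
    ‖y' Ω - gs D T y' Ω‖ ≤
      2 * ‖y Ω - y' Ω‖ + wc * T * (‖star y Ω‖ + ‖star y' Ω‖) := by
  set h := D.J (star y Ω) + D.J (star y' Ω)
  set R := Fixed.vint D (kern 1) h with hR
  have h1 := norm_sub_strip_le D hcs hy hy'
  have h2 := norm_win_sub_kern_le D hT hT1 h
  have hh : ‖h‖ ≤ ‖star y Ω‖ + ‖star y' Ω‖ :=
    (norm_add_le _ _).trans_eq (by rw [Fixed.norm_J, Fixed.norm_J])
  have h3 : ‖Fixed.vint D (win T 0) (R - y' Ω)‖ ≤ ‖y Ω - y' Ω‖ := by
    refine (norm_win_le D hT _).trans ?_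
    rw [norm_sub_rev]; exact h1
  have e : y' Ω - gs D T y' Ω = (y' Ω - R) + (R - Fixed.vint D (win T 0) R) +
      Fixed.vint D (win T 0) (R - y' Ω) := by
    have h4 := Fixed.vint_add D (integrable_win hT 0) (R - y' Ω) (y' Ω)
    rw [sub_add_cancel] at h4
    rw [gs_omega D hT, h4]
    abel
  rw [e]
  refine (norm_add₃_le).trans ?_
  rw [two_mul]
  have := mul_le_mul_of_nonneg_left hh (mul_nonneg wc_pos.le hT.le)
  linarith

/-- The two sided estimate, with a width that only depends on the error. -/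
theorem exists_width (r : ℝ) (hr : 0 < r) : ∃ T : ℝ, 0 < T ∧
    ∀ (H : Type v) [NormedAddCommGroup H] [InnerProductSpace ℂ H] [CompleteSpace H]
      (N : VonNeumannAlgebra H) (Ω : H) (D : ModData N Ω), IsCS N Ω →
      ∀ y ∈ N, ∀ y' ∈ N.commutant,
        ‖y' Ω - gs D T y' Ω‖ ≤ 2 * ‖y Ω - y' Ω‖ + r * (‖star y Ω‖ + ‖star y' Ω‖) := by
  have hc := wc_pos
  refine ⟨min 1 (r / wc), lt_min one_pos (div_pos hr hc), ?_⟩
  intro H _ _ _ N Ω D hcs y hy y' hy'
  refine (norm_sub_gs_le D hcs (lt_min one_pos (div_pos hr hc)) (min_le_left _ _) hy hy').trans ?_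
  gcongr
  calc wc * min 1 (r / wc) ≤ wc * (r / wc) := mul_le_mul_of_nonneg_left (min_le_right _ _) hc.le
    _ = r := by field_simp

end Vale.Agent.P096.III.Analytic
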