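import Vale.Agent.P096.III.Analytic.Central

/-!
# The lift through `Δ^(1/4)`

`lift A` is `h(Δ)(AΩ + J A*Ω)` with `h = 1 / (Δ^(1/4) + Δ^(-1/4))`. It is linear in `A`, equals
`Δ^(1/4) yΩ` on the algebra and `Δ^(-1/4) kΩ` on the commutant.
-/

namespace Vale.Agent.P096.III.Analytic

open scoped InnerProductSpace Topology ComplexOrder ComplexConjugate
open Filter MeasureTheory Complex
open Vale.Agent.P132

universe u

variable {H : Type u} [NormedAddCommGroup H] [InnerProductSpace ℂ H] [CompleteSpace H]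
  {N : VonNeumannAlgebra H} {Ω : H} (D : ModData N Ω)

/-- The lift. -/
noncomputable def lift : (H →L[ℂ] H) →ₗ[ℂ] H where
  toFun A := Fixed.vint D (kern 2) (A Ω + D.J (star A Ω))
  map_add' A B := by
    rw [← Fixed.vint_add D (integrable_kern two_pos)]
    congr 1
    simp only [add_apply, star_add, D.J_add]
    abel
  map_smul' z A := by
    rw [RingHom.id_apply, ← Fixed.vint_smul]
    congr 1
    simp [star_smul, D.J_smul]

theorem lift_apply (A : H →L[ℂ] H) :
    lift D A = Fixed.vint D (kern 2) (A Ω + D.J (star A Ω)) := rfl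

theorem norm_lift_le (A : H →L[ℂ] H) : ‖lift D A‖ ≤ (‖A Ω‖ + ‖star A Ω‖) / 2 := by
  refine (norm_kern_le D two_pos _).trans ?_
  gcongr
  exact (norm_add_le _ _).trans_eq (by rw [Fixed.norm_J])

theorem lift_central (hcs : IsCS N Ω) {c : H →L[ℂ] H} (hc : c ∈ N) (hc' : c ∈ N.commutant)
    {A : H →L[ℂ] H} (h : c * A = A * c) : lift D (c * A) = c (lift D A) := by
  have hs : star (c * A) = star c * star A := by rw [h, star_mul]
  rw [lift_apply, lift_apply, hs, mul_apply_eq_comp, mul_apply_eq_comp,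
    central_J D hcs (star_mem hc) (star_mem hc'), star_star, ← map_add,
    central_vint D hcs hc hc' (integrable_kern two_pos)]

theorem win_lift_alg {T : ℝ} (hT : 0 < T) {y : H →L[ℂ] H} (hy : y ∈ N) (z : ℝ) :
    Fixed.vint D (win T z) (lift D y) = Fixed.vint D (win T (z + 1 / 4)) (y Ω) := by
  rw [lift_apply, vint_comm D (integrable_win hT z) (integrable_kern two_pos),
    Fixed.vint_add D (integrable_win hT z), win_J_star D hT hy z, add_comm]
  have h := kern_win D two_pos hT (z + 1 / 4) (y Ω)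
  ring_nf at h ⊢
  exact h

theorem win_lift_comm (hcs : IsCS N Ω) {T : ℝ} (hT : 0 < T) {k : H →L[ℂ] H}
    (hk : k ∈ N.commutant) (z : ℝ) :
    Fixed.vint D (win T z) (lift D k) = Fixed.vint D (win T (z - 1 / 4)) (k Ω) := by
  rw [lift_apply, vint_comm D (integrable_win hT z) (integrable_kern two_pos),
    Fixed.vint_add D (integrable_win hT z), win_J_star' D hcs hT hk z]
  have h := kern_win D two_pos hT (z - 1 / 4) (k Ω)
  ring_nf at h ⊢
  exact h

/-- The lift pairs the commutant and the algebra as the vectors do. -/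
theorem inner_lift_alg (hcs : IsCS N Ω) {k y : H →L[ℂ] H} (hk : k ∈ N.commutant) (hy : y ∈ N) :
    ⟪lift D k, lift D y⟫_ℂ = ⟪k Ω, y Ω⟫_ℂ := by
  refine tendsto_nhds_unique ((tendsto_win D (lift D k)).inner (𝕜 := ℂ) (tendsto_win D (lift D y)))
    (((tendsto_win D (k Ω)).inner (𝕜 := ℂ) (tendsto_win D (y Ω))).congr fun n => ?_)
  have hT := Modular.wid_pos n
  rw [win_lift_comm D hcs hT hk, win_lift_alg D hT hy, inner_win D hT, inner_win D hT,
    win_win D hT hT, win_win D hT hT]
  ring_nf

/-- The lift on the commutant is symmetric. -/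
theorem inner_lift_lift (hcs : IsCS N Ω) {k l : H →L[ℂ] H} (hk : k ∈ N.commutant)
    (hl : l ∈ N.commutant) : ⟪lift D k, lift D l⟫_ℂ = ⟪k Ω, D.J (star l Ω)⟫_ℂ := by
  refine tendsto_nhds_unique ((tendsto_win D (lift D k)).inner (𝕜 := ℂ) (tendsto_win D (lift D l)))
    (((tendsto_win D (k Ω)).inner (𝕜 := ℂ) (tendsto_win D (D.J (star l Ω)))).congr fun n => ?_)
  have hT := Modular.wid_pos n
  rw [win_lift_comm D hcs hT hk, win_lift_comm D hcs hT hl, win_J_star' D hcs hT hl, inner_win D hT,
    inner_win D hT, win_win D hT hT, win_win D hT hT]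
  ring_nf

end Vale.Agent.P096.III.Analytic
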