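import Vale.Agent.P096.III.Analytic.Lift
import Vale.Agent.P096.III.Iface

/-!
# The lift, in the form of the interface
-/

namespace Vale.Agent.P096.III.Analytic

universe v

/-- `Iface.StmtLift`. -/
theorem stmtLift : Iface.StmtLift.{v} := by
  intro H _ _ _ N Ω hcs D
  refine ⟨lift D, norm_lift_le D, fun z hz T h => lift_central D hcs hz.1 hz.2 h,
    fun k hk y hy => inner_lift_alg D hcs hk hy,
    fun k₁ h₁ k₂ h₂ => inner_lift_lift D hcs h₁ h₂⟩

end Vale.Agent.P096.III.Analytic
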