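import Vale.Agent.P132.Modular.Exports
import Vale.Agent.P132.Tomita.Strip

/-!
# Gaussian windows at imaginary shifts and the kernels of the strip

`win T y` is the normalised Gaussian of width `T` at `t + i y`; smearing by it is
`Δ^y` followed by the Gaussian mean. `kern a` is the kernel of `1 / (Δ^(1/2a) + Δ^(-1/2a))`.
-/

namespace Vale.Agent.P096.III.Analytic

open scoped InnerProductSpace Topology ComplexOrder ComplexConjugate
open Filter MeasureTheory Complex
open Vale.Agent.P132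

universe u

/-- The normalised Gaussian window of width `T` at `t + i y`. -/
noncomputable def win (T y t : ℝ) : ℂ :=
  (((T * √(2 * Real.pi))⁻¹ : ℝ) : ℂ) * Fixed.gam T ((t : ℂ) + (y : ℂ) * I)

theorem continuous_win (T y : ℝ) : Continuous (win T y) := by
  unfold win Fixed.gam; fun_prop

theorem norm_win {T : ℝ} (hT : 0 < T) (y t : ℝ) : ‖win T y t‖ =
    (T * √(2 * Real.pi))⁻¹ * Real.exp (y ^ 2 / (2 * T ^ 2)) *
      Real.exp (-(1 / (2 * T ^ 2)) * t ^ 2) := by
  rw [win, norm_mul, Complex.norm_real, Real.norm_of_nonneg (by positivity), Fixed.gam,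
    Complex.norm_exp, mul_assoc, ← Real.exp_add]
  congr 2
  have : -(((t : ℂ) + (y : ℂ) * I) / (T : ℂ)) ^ 2 / 2 =
      ((-(t ^ 2 - y ^ 2) / (2 * T ^ 2) : ℝ) : ℂ) + ((-(t * y) / T ^ 2 : ℝ) : ℂ) * I := by
    have hT' : (T : ℂ) ≠ 0 := ofReal_ne_zero.2 hT.ne'
    push_cast
    field_simp
    linear_combination (-((y : ℂ) ^ 2)) * I_sq
  rw [this]
  simp only [add_re, ofReal_re, mul_re, I_re, mul_zero, ofReal_im, I_im, mul_one, sub_zero,
    add_zero]
  ring

theorem integrable_win {T : ℝ} (hT : 0 < T) (y : ℝ) : Integrable (win T y) :=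
  ((integrable_exp_neg_mul_sq (b := 1 / (2 * T ^ 2)) (by positivity)).const_mul
    ((T * √(2 * Real.pi))⁻¹ * Real.exp (y ^ 2 / (2 * T ^ 2)))).mono'
      (continuous_win T y).aestronglyMeasurable
      (Eventually.of_forall fun t => (norm_win hT y t).le)

theorem integral_norm_win {T : ℝ} (hT : 0 < T) (y : ℝ) :
    ∫ t, ‖win T y t‖ = Real.exp (y ^ 2 / (2 * T ^ 2)) := by
  simp only [norm_win hT y]
  rw [integral_const_mul, integral_gaussian,
    show Real.pi / (1 / (2 * T ^ 2)) = (2 * Real.pi) * T ^ 2 by field_simp,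
    Real.sqrt_mul (by positivity) (T ^ 2), Real.sqrt_sq hT.le]
  field_simp

theorem conj_win (T y t : ℝ) : conj (win T y t) = win T (-y) t := by
  rw [win, win, map_mul, conj_ofReal, Fixed.gam, Fixed.gam, ← exp_conj]
  congr 2
  simp [map_div₀, map_ofNat]

theorem win_neg (T y t : ℝ) : win T y (-t) = win T (-y) t := by
  rw [win, win, Fixed.gam, Fixed.gam]
  congr 2
  push_cast
  ring

theorem win_gauss (T t : ℝ) :
    win T 0 t = (((T * √(2 * Real.pi))⁻¹ : ℝ) : ℂ) * gauss T 0 (t : ℂ) := by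
  simp [win, gauss, Fixed.gam]

theorem win_gauss_shift (T t : ℝ) :
    win T (1 / 2) t = (((T * √(2 * Real.pi))⁻¹ : ℝ) : ℂ) * gauss T 0 ((t : ℂ) + I / 2) := by
  simp [win, gauss, Fixed.gam, div_eq_inv_mul]

theorem win_conv {a b : ℝ} (ha : 0 < a) (hb : 0 < b) (y z s : ℝ) :
    ∫ u : ℝ, win a y u * win b z (s - u) = win √(a ^ 2 + b ^ 2) (y + z) s := by
  set c := √(a ^ 2 + b ^ 2) with hc
  have hc0 : 0 < c := Real.sqrt_pos.2 (by positivity)
  have hc2 : c ^ 2 = a ^ 2 + b ^ 2 := Real.sq_sqrt (by positivity)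
  have ha' : (a : ℂ) ≠ 0 := ofReal_ne_zero.2 ha.ne'
  have hb' : (b : ℂ) ≠ 0 := ofReal_ne_zero.2 hb.ne'
  set B : ℝ := -(1 / (2 * a ^ 2) + 1 / (2 * b ^ 2)) with hB
  have hB0 : B < 0 := by rw [hB, neg_lt_zero]; positivity
  set α : ℂ := (y : ℂ) * I
  set β : ℂ := (s : ℂ) + (z : ℂ) * I
  have hq : ∀ u : ℝ, win a y u * win b z (s - u) =
      ((((a * √(2 * Real.pi))⁻¹ * (b * √(2 * Real.pi))⁻¹ : ℝ) : ℂ)) *
      cexp ((B : ℂ) * (u : ℂ) ^ 2 + (-α / (a : ℂ) ^ 2 + β / (b : ℂ) ^ 2) * (u : ℂ) +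
        (-α ^ 2 / (2 * (a : ℂ) ^ 2) - β ^ 2 / (2 * (b : ℂ) ^ 2))) := by
    intro u
    rw [win, win, Fixed.gam, Fixed.gam, mul_mul_mul_comm, ← exp_add, ← ofReal_mul]
    congr 2
    simp only [hB, α, β]
    push_cast
    field_simp
    ring
  simp only [hq]
  rw [integral_const_mul, integral_cexp_quadratic (by simpa using hB0), win, Fixed.gam, ← mul_assoc]
  congr 1
  · rw [show ((Real.pi : ℂ) / -(B : ℂ)) = ((Real.pi / -B : ℝ) : ℂ) by push_cast; rfl,
      show (1 / 2 : ℂ) = ((1 / 2 : ℝ) : ℂ) by push_cast; rfl,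
      ← ofReal_cpow (div_nonneg Real.pi_pos.le (by linarith)), ← Real.sqrt_eq_rpow, ← ofReal_mul]
    congr 1
    rw [show Real.pi / -B = (2 * Real.pi) * (a * b / c) ^ 2 by
      rw [hB, div_pow, hc2]; field_simp; ring,
      Real.sqrt_mul (by positivity) ((a * b / c) ^ 2), Real.sqrt_sq (by positivity)]
    field_simp
  · congr 1
    have hc' : (c : ℂ) ^ 2 = (a : ℂ) ^ 2 + (b : ℂ) ^ 2 := by exact_mod_cast hc2
    have hne : (a : ℂ) ^ 2 + (b : ℂ) ^ 2 ≠ 0 := by
      exact_mod_cast (by positivity : a ^ 2 + b ^ 2 ≠ 0)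
    rw [neg_div, div_pow, hc']
    simp only [hB, α, β]
    push_cast
    field_simp
    ring

/-- The kernel `a / (2 cosh (π a t))`. -/
noncomputable def kern (a t : ℝ) : ℂ := ((a * (Tomita.den (a * t))⁻¹ : ℝ) : ℂ)

theorem continuous_kern (a : ℝ) : Continuous (kern a) :=
  continuous_ofReal.comp (continuous_const.mul
    ((Tomita.continuous_den.comp (continuous_const.mul continuous_id)).inv₀
      fun _ => (Tomita.den_pos _).ne'))

theorem norm_kern {a : ℝ} (ha : 0 < a) (t : ℝ) :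
    ‖kern a t‖ = a * (Tomita.den (a * t))⁻¹ := by
  rw [kern, Complex.norm_real, Real.norm_of_nonneg]
  have := Tomita.den_pos (a * t); positivity

theorem integrable_kern {a : ℝ} (ha : 0 < a) : Integrable (kern a) :=
  ((Tomita.integrable_inv_den.comp_mul_left' ha.ne').const_mul a).ofReal

theorem integral_norm_kern {a : ℝ} (ha : 0 < a) : ∫ t, ‖kern a t‖ = 1 / 2 := by
  simp only [norm_kern ha]
  rw [integral_const_mul, Measure.integral_comp_mul_left (fun t => (Tomita.den t)⁻¹) a,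
    Tomita.integral_inv_den, abs_of_pos (inv_pos.2 ha), smul_eq_mul, ← mul_assoc,
    mul_inv_cancel₀ ha.ne', one_mul]

theorem conj_kern (a t : ℝ) : conj (kern a t) = kern a t := conj_ofReal _

theorem kern_neg (a t : ℝ) : kern a (-t) = kern a t := by
  simp [kern, Tomita.den]

/-- The strip identity on windows. -/
theorem kern_conv {a T : ℝ} (ha : 0 < a) (hT : 0 < T) (y s : ℝ) :
    (∫ u, kern a u * win T (y + 1 / (2 * a)) (s - u)) +
      ∫ u, kern a u * win T (y - 1 / (2 * a)) (s - u) = win T y s := by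
  set G : ℂ → ℂ := fun v => (((T * √(2 * Real.pi))⁻¹ : ℝ) : ℂ) *
    Fixed.gam T ((s : ℂ) + (y : ℂ) * I - v / (a : ℂ)) with hG
  have hd : Differentiable ℂ G := by
    simp only [hG, Fixed.gam]; fun_prop
  have hb : ∀ v : ℂ, |v.im| ≤ 1 / 2 → ‖G v‖ ≤ (T * √(2 * Real.pi))⁻¹ *
      Real.exp ((|y| + 1 / (2 * a)) ^ 2 / (2 * T ^ 2)) * Real.exp (0 * |v.re|) := by
    intro v hv
    have e : (s : ℂ) + (y : ℂ) * I - v / (a : ℂ) =
        ((s - v.re / a : ℝ) : ℂ) + ((y - v.im / a : ℝ) : ℂ) * I := by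
      apply Complex.ext <;> simp
    have h2 : G v = win T (y - v.im / a) (s - v.re / a) := by rw [hG, win, ← e]
    rw [h2, norm_win hT, zero_mul, Real.exp_zero, mul_one]
    have hy : |y - v.im / a| ≤ |y| + 1 / (2 * a) := by
      refine (abs_sub _ _).trans (add_le_add le_rfl ?_)
      rw [abs_div, abs_of_pos ha, show 1 / (2 * a) = 1 / 2 / a by field_simp]
      gcongr
    refine (mul_le_of_le_one_right (by positivity) (Real.exp_le_one_iff.2 ?_)).trans ?_
    · have : 0 ≤ 1 / (2 * T ^ 2) * (s - v.re / a) ^ 2 := by positivity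
      linarith
    · exact mul_le_mul_of_nonneg_left (Real.exp_le_exp.2 (div_le_div_of_nonneg_right
        (sq_le_sq.2 (hy.trans (le_abs_self _))) (by positivity))) (by positivity)
  have hstrip := Tomita.strip_integral hd Real.pi_pos hb
  have h0 : G 0 = win T y s := by simp [hG, win]
  have hi : ∀ z, Integrable fun u => kern a u * win T z (s - u) := fun z =>
    (integrable_kern ha).mul_bdd
      ((continuous_win T z).comp (continuous_const.sub continuous_id)).aestronglyMeasurable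
      (c := (T * √(2 * Real.pi))⁻¹ * Real.exp (z ^ 2 / (2 * T ^ 2)))
      (Eventually.of_forall fun u => by
        rw [norm_win hT]
        refine mul_le_of_le_one_right (by positivity) (Real.exp_le_one_iff.2 ?_)
        have : 0 ≤ 1 / (2 * T ^ 2) * (s - u) ^ 2 := by positivity
        linarith)
  rw [← integral_add (hi _) (hi _), ← h0, ← hstrip]
  have hscale : ∀ f : ℝ → ℂ, ∫ v, f v = ∫ u, (a : ℂ) * f (a * u) := by
    intro f
    rw [integral_const_mul, Measure.integral_comp_mul_left f a, abs_of_pos (inv_pos.2 ha),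
      ← Complex.coe_smul, smul_eq_mul, ← mul_assoc, ← ofReal_mul, mul_inv_cancel₀ ha.ne',
      ofReal_one, one_mul]
  rw [hscale fun v => (G ((v : ℂ) + I / 2) + G ((v : ℂ) - I / 2)) / (Tomita.den v : ℂ)]
  refine integral_congr_ae (Eventually.of_forall fun u => ?_)
  have ha' : (a : ℂ) ≠ 0 := ofReal_ne_zero.2 ha.ne'
  simp only [kern, win, hG]
  rw [show (s : ℂ) + (y : ℂ) * I - (((a * u : ℝ) : ℂ) + I / 2) / (a : ℂ) =
      ((s - u : ℝ) : ℂ) + ((y - 1 / (2 * a) : ℝ) : ℂ) * I by push_cast; field_simp; ring,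
    show (s : ℂ) + (y : ℂ) * I - (((a * u : ℝ) : ℂ) - I / 2) / (a : ℂ) =
      ((s - u : ℝ) : ℂ) + ((y + 1 / (2 * a) : ℝ) : ℂ) * I by push_cast; field_simp; ring]
  push_cast
  ring

theorem integrable_conv {a T : ℝ} (ha : 0 < a) (hT : 0 < T) (z : ℝ) :
    Integrable fun s => ∫ u, kern a u * win T z (s - u) :=
  ((integrable_kern ha).integrable_convolution (ContinuousLinearMap.mul ℂ ℂ)
    (integrable_win hT z) :)

/-- The kernel of `1 / (Δ^(1/2) + Δ^(-1/2))` moves slowly. -/
theorem norm_kern_sub_le (u t : ℝ) :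
    ‖kern 1 (t - u) - kern 1 t‖ ≤ (Real.exp (Real.pi * |u|) - 1) * ‖kern 1 t‖ := by
  have key : ∀ x w : ℝ, Tomita.den (x + w) ≤ Real.exp (Real.pi * |w|) * Tomita.den x := by
    intro x w
    simp only [Tomita.den, Real.cosh_eq]
    have h1 : Real.exp (Real.pi * (x + w)) ≤
        Real.exp (Real.pi * |w|) * Real.exp (Real.pi * x) := by
      rw [← Real.exp_add]
      exact Real.exp_le_exp.2 (by nlinarith [Real.pi_pos, le_abs_self w])
    have h2 : Real.exp (-(Real.pi * (x + w))) ≤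
        Real.exp (Real.pi * |w|) * Real.exp (-(Real.pi * x)) := by
      rw [← Real.exp_add]
      exact Real.exp_le_exp.2 (by nlinarith [Real.pi_pos, neg_abs_le w])
    linarith
  rw [norm_kern one_pos, kern, kern, ← ofReal_sub, Complex.norm_real, Real.norm_eq_abs]
  simp only [one_mul]
  set p := Real.exp (Real.pi * |u|) with hp
  have h1 := key t (-u)
  have h2 := key (t - u) u
  rw [abs_neg, ← hp, ← sub_eq_add_neg] at h1
  rw [← hp, sub_add_cancel] at h2
  have hA := Tomita.den_pos (t - u)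
  have hB := Tomita.den_pos t
  have hp1 : 1 ≤ p := Real.one_le_exp (by positivity)
  rw [abs_le, inv_eq_one_div, inv_eq_one_div]
  constructor
  · have : (2 - p) / Tomita.den t ≤ 1 / Tomita.den (t - u) := by
      rw [div_le_div_iff₀ hB hA, one_mul]
      nlinarith [mul_nonneg hB.le (sq_nonneg (p - 1))]
    rw [sub_div] at this
    linarith [show (p - 1) * (1 / Tomita.den t) = p / Tomita.den t - 1 / Tomita.den t by ring,
      show 2 / Tomita.den t = 2 * (1 / Tomita.den t) by ring]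
  · have : 1 / Tomita.den (t - u) ≤ p / Tomita.den t := by
      rw [div_le_div_iff₀ hA hB, one_mul]; exact h2
    linarith [show (p - 1) * (1 / Tomita.den t) = p / Tomita.den t - 1 / Tomita.den t by ring]

theorem integral_norm_kern_sub_le (u : ℝ) :
    ∫ t, ‖kern 1 (t - u) - kern 1 t‖ ≤ (Real.exp (Real.pi * |u|) - 1) / 2 := by
  refine (integral_mono (((integrable_kern one_pos).comp_sub_right u).sub
    (integrable_kern one_pos)).norm ((integrable_kern one_pos).norm.const_mul _)
      (norm_kern_sub_le u)).trans_eq ?_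
  rw [integral_const_mul, integral_norm_kern one_pos]
  ring

variable {H : Type u} [NormedAddCommGroup H] [InnerProductSpace ℂ H] [CompleteSpace H]
  {N : VonNeumannAlgebra H} {Ω : H} (D : ModData N Ω)

theorem vint_U (c : ℝ → ℂ) (r : ℝ) (ξ : H) :
    Fixed.vint D c (D.U r ξ) = Fixed.vint D (fun t => c (t - r)) ξ := by
  rw [Fixed.vint, Fixed.vint, ← integral_add_right_eq_self (fun t => c (t - r) • D.U t ξ) r]
  simp [Fixed.U_U]

theorem vint_vint {c e : ℝ → ℂ} (hc : Integrable c) (he : Integrable e) (hc' : Continuous c)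
    (he' : Continuous e) (ξ : H) :
    Fixed.vint D c (Fixed.vint D e ξ) =
      Fixed.vint D (fun s => ∫ u, c u * e (s - u)) ξ := by
  have hint : Integrable (Function.uncurry fun u s : ℝ => (c u * e (s - u)) • D.U s ξ)
      (volume.prod volume) := by
    have h := (measurePreserving_prod_neg_add (volume : Measure ℝ) volume).integrable_comp
      (g := fun p : ℝ × ℝ => ‖c p.1‖ * ‖e p.2‖) (hc.norm.mul_prod he.norm).1
    refine ((h.2 (hc.norm.mul_prod he.norm)).mul_const ‖ξ‖).mono' ?_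
      (Eventually.of_forall fun p => ?_)
    · exact (((hc'.comp continuous_fst).mul (he'.comp (continuous_snd.sub continuous_fst))).smul
        ((D.U_cont ξ).comp continuous_snd)).aestronglyMeasurable
    · simp [Function.uncurry, norm_smul, Fixed.norm_U, neg_add_eq_sub]
  calc Fixed.vint D c (Fixed.vint D e ξ) = ∫ u : ℝ, ∫ s : ℝ, (c u * e (s - u)) • D.U s ξ := by
        rw [Fixed.vint]
        refine integral_congr_ae (Eventually.of_forall fun u => ?_)
        dsimp only
        rw [Fixed.U_vint D he, vint_U, Fixed.vint, ← integral_smul]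
        simp only [mul_smul]
    _ = ∫ s : ℝ, ∫ u : ℝ, (c u * e (s - u)) • D.U s ξ := integral_integral_swap hint
    _ = _ := by simp only [Fixed.vint, integral_smul_const]

theorem vint_comm {c e : ℝ → ℂ} (hc : Integrable c) (he : Integrable e) (ξ : H) :
    Fixed.vint D c (Fixed.vint D e ξ) = Fixed.vint D e (Fixed.vint D c ξ) := by
  set L : H →L[ℂ] H := LinearMap.mkContinuous
    { toFun := Fixed.vint D c
      map_add' := Fixed.vint_add D hc
      map_smul' := fun z v => Fixed.vint_smul D c z v }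
    (∫ t, ‖c t‖) (Fixed.norm_vint_le D c) with hL
  have h := L.integral_comp_comm (Fixed.integrable_smul_U D he ξ)
  refine h.symm.trans (integral_congr_ae (Eventually.of_forall fun t => ?_))
  show L (e t • D.U t ξ) = e t • D.U t (Fixed.vint D c ξ)
  rw [map_smul, Fixed.U_vint D hc]
  rfl

theorem inner_vint_left {c : ℝ → ℂ} (hc : Integrable c) (hs : ∀ t, conj (c (-t)) = c t)
    (η ξ : H) : ⟪Fixed.vint D c η, ξ⟫_ℂ = ⟪η, Fixed.vint D c ξ⟫_ℂ := by
  rw [← inner_conj_symm, Fixed.inner_vint D hc, Fixed.inner_vint D hc, ← integral_conj,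
    ← integral_neg_eq_self]
  refine integral_congr_ae (Eventually.of_forall fun t => ?_)
  simp only [map_mul, inner_conj_symm, Fixed.inner_U_left, neg_neg, hs]

theorem inner_win {T : ℝ} (hT : 0 < T) (y : ℝ) (η ξ : H) :
    ⟪Fixed.vint D (win T y) η, ξ⟫_ℂ = ⟪η, Fixed.vint D (win T y) ξ⟫_ℂ :=
  inner_vint_left D (integrable_win hT y) (fun t => by rw [win_neg, conj_win, neg_neg]) η ξ

theorem inner_kern {a : ℝ} (ha : 0 < a) (η ξ : H) :
    ⟪Fixed.vint D (kern a) η, ξ⟫_ℂ = ⟪η, Fixed.vint D (kern a) ξ⟫_ℂ :=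
  inner_vint_left D (integrable_kern ha) (fun t => by rw [kern_neg, conj_kern]) η ξ

theorem J_win (T y : ℝ) (ξ : H) :
    D.J (Fixed.vint D (win T y) ξ) = Fixed.vint D (win T (-y)) (D.J ξ) := by
  rw [Fixed.J_vint]; simp [conj_win]

theorem J_kern (a : ℝ) (ξ : H) :
    D.J (Fixed.vint D (kern a) ξ) = Fixed.vint D (kern a) (D.J ξ) := by
  rw [Fixed.J_vint]; simp [conj_kern]

theorem win_win {a b : ℝ} (ha : 0 < a) (hb : 0 < b) (y z : ℝ) (ξ : H) :
    Fixed.vint D (win a y) (Fixed.vint D (win b z) ξ) =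
      Fixed.vint D (win √(a ^ 2 + b ^ 2) (y + z)) ξ := by
  rw [vint_vint D (integrable_win ha y) (integrable_win hb z) (continuous_win a y)
    (continuous_win b z)]
  exact congrArg (fun f => Fixed.vint D f ξ) (funext (win_conv ha hb y z))

theorem kern_win {a T : ℝ} (ha : 0 < a) (hT : 0 < T) (y : ℝ) (ξ : H) :
    Fixed.vint D (kern a) (Fixed.vint D (win T (y + 1 / (2 * a))) ξ +
      Fixed.vint D (win T (y - 1 / (2 * a))) ξ) = Fixed.vint D (win T y) ξ := by
  rw [Fixed.vint_add D (integrable_kern ha),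
    vint_vint D (integrable_kern ha) (integrable_win hT _) (continuous_kern a) (continuous_win T _),
    vint_vint D (integrable_kern ha) (integrable_win hT _) (continuous_kern a) (continuous_win T _),
    Fixed.vint, Fixed.vint, Fixed.vint, ← integral_add]
  · refine integral_congr_ae (Eventually.of_forall fun t => ?_)
    simp only [← add_smul, kern_conv ha hT]
  all_goals exact Fixed.integrable_smul_U D (integrable_conv ha hT _) ξ

theorem norm_kern_le {a : ℝ} (ha : 0 < a) (ξ : H) :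
    ‖Fixed.vint D (kern a) ξ‖ ≤ ‖ξ‖ / 2 := by
  refine (Fixed.norm_vint_le D _ ξ).trans_eq ?_
  rw [integral_norm_kern ha]; ring

theorem norm_win_le {T : ℝ} (hT : 0 < T) (ξ : H) : ‖Fixed.vint D (win T 0) ξ‖ ≤ ‖ξ‖ := by
  refine (Fixed.norm_vint_le D _ ξ).trans_eq ?_
  rw [integral_norm_win hT]; simp

theorem avg_eq (n : ℕ) (ξ : H) :
    Modular.avg D n ξ = Fixed.vint D (win (Modular.wid n) 0) ξ := by
  rw [Modular.avg, ← Fixed.vint_const_mul]
  exact congrArg (fun f => Fixed.vint D f ξ) (funext fun t => (win_gauss _ t).symm)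

theorem tendsto_win (ξ : H) :
    Tendsto (fun n => Fixed.vint D (win (Modular.wid n) 0) ξ) atTop (𝓝 ξ) :=
  (Modular.tendsto_avg D ξ).congr fun n => avg_eq D n ξ

end Vale.Agent.P096.III.Analytic
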